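import Vale.Agent.P042.MathlibUsed

namespace Vale.Agent.P042

open Polynomial Pointwise

/-- `h` has a root modulo every `q ≥ 1`. -/
def Intersective (h : ℤ[X]) : Prop :=
  ∀ q : ℕ, 1 ≤ q → ∃ t : ℤ, (q : ℤ) ∣ h.eval t

/-- `(A - A) ∩ h(ℕ₊) ⊆ {0}`. -/
def DiffFree (h : ℤ[X]) (A : Finset ℤ) : Prop :=
  ((A : Set ℤ) - (A : Set ℤ)) ∩ {m : ℤ | ∃ n : ℕ, 1 ≤ n ∧ h.eval (n : ℤ) = m} ⊆ {0}

open Classical in
/-- `r_h(N)`: the largest size of a subset of `{1, ..., N}` with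
`(A - A) ∩ h(ℕ₊) ⊆ {0}`. -/
noncomputable def rMax (h : ℤ[X]) (N : ℕ) : ℕ :=
  ((Finset.Icc (1 : ℤ) N).powerset.filter (fun A => DiffFree h A)).sup Finset.card

end Vale.Agent.P042
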