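import Mathlib.Algebra.AffineMonoid.Basic
import Mathlib.Algebra.Lie.OfAssociative
import Mathlib.Algebra.Module.StablyFree.Basic
import Mathlib.Algebra.Order.Ring.Star
import Mathlib.Algebra.Order.Star.Real
import Mathlib.Algebra.Ring.IsFormallyReal
import Mathlib.Analysis.CStarAlgebra.Classes
import Mathlib.Analysis.Complex.ExponentialBounds
import Mathlib.Analysis.PSeries
import Mathlib.Analysis.Real.Pi.Bounds
import Mathlib.Analysis.SpecialFunctions.Complex.CircleAddChar
import Mathlib.Combinatorics.Pigeonhole
import Mathlib.Computability.Reduce
import Mathlib.Data.Int.CardIntervalMod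
import Mathlib.Data.Int.Star
import Mathlib.Data.Nat.ChineseRemainder
import Mathlib.Data.Rat.Star
import Mathlib.FieldTheory.Finite.Extension
import Mathlib.MeasureTheory.Measure.SeparableMeasure
import Mathlib.NumberTheory.Chebyshev
import Mathlib.NumberTheory.Harmonic.Bounds
import Mathlib.NumberTheory.Padics.ProperSpace
import Mathlib.Order.CompletePartialOrder
import Mathlib.RingTheory.Flat.TorsionFree
import Mathlib.RingTheory.Henselian
import Mathlib.RingTheory.PicardGroup
import Mathlib.RingTheory.Polynomial.Resultant.Basic
import Mathlib.RingTheory.PowerSeries.Derivative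
import Mathlib.RingTheory.PowerSeries.Inverse
import Mathlib.RingTheory.Radical.Basic
import Mathlib.RingTheory.RegularLocalRing.Defs
import Mathlib.RingTheory.SimpleRing.Principal
import Mathlib.RingTheory.UniqueFactorizationDomain.Finsupp
import Mathlib.Tactic
import Mathlib.Topology.Connected.Separation
import Mathlib.Topology.MetricSpace.Ultra.TotallySeparated

/-! The part of Mathlib that the development of this folder uses. -/
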